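import Vale.Agent.N307.Geo
import Vale.Agent.N307.Defs

/-!
The structure of the large members of a class which is categorical in a large cardinal.
-/

universe u

open FirstOrder Cardinal Set Function Language

namespace Vale.Agent.N307

open Vale.Agent.P307 Vale.Agent.P307.R2.H427
open scoped Classical

variable {L : Language.{u, u}} {K : AEC L} {μ : Cardinal.{u}}

section basic

variable {M N N' : Type u} [L.Structure M] [L.Structure N] [L.Structure N']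

theorem card_range (f : M ↪[L] N) : #f.toHom.range = #M :=
  (Cardinal.mk_congr f.equivRange.toEquiv).symm

theorem exists_factor {k : M ↪[L] N} {e : N' ↪[L] N} (hk : K.Emb k) (he : K.Emb e)
    (h : ∀ x, ∃ y, k y = e x) : ∃ g : N' ↪[L] M, K.Emb g ∧ ∀ x, k (g x) = e x := by
  let g : N' ↪[L] M := k.equivRange.symm.toEmbedding.comp (e.codRestrict k.toHom.range h)
  have hg : ∀ x, k (g x) = e x := fun x => by
    rw [← Embedding.equivRange_apply]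
    exact congrArg Subtype.val (k.equivRange.apply_symm_apply _)
  refine ⟨g, AEC.Emb.of_comp hk ?_, hg⟩
  rwa [show k.comp g = e from Embedding.ext hg]

theorem le_map {g : M ↪[L] N} (hg : K.Emb g) {V : L.Substructure M} (hV : K.le V) :
    K.le (V.map g.toHom) := by
  have h := AEC.Emb.comp hg (AEC.emb_subtype.2 hV)
  unfold AEC.Emb at h
  convert h using 1
  ext y
  exact ⟨fun ⟨x, hx, h⟩ => ⟨⟨x, hx⟩, h⟩, fun ⟨x, h⟩ => ⟨x.1, x.2, h⟩⟩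

theorem le_comap {g : M ↪[L] N} (hg : K.Emb g) {V : L.Substructure N} (hV : K.le V)
    (h : V ≤ g.toHom.range) : K.le (V.comap g.toHom) := by
  refine AEC.emb_subtype.1 (AEC.Emb.of_comp hg ?_)
  unfold AEC.Emb
  convert hV using 1
  ext y
  refine ⟨?_, fun hy => ?_⟩
  · rintro ⟨x, rfl⟩
    exact x.2
  · obtain ⟨x, rfl⟩ := h hy
    exact ⟨⟨x, hy⟩, rfl⟩

theorem emb_aut (σ : N ≃[L] N) {g : M ↪[L] N} (hg : K.Emb g) : K.Emb (σ.toEmbedding.comp g) :=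
  AEC.Emb.comp (AEC.Emb.of_equiv σ hg.mem_right) hg

/-- A prime model inside a given strong substructure. -/
theorem AmbAt.pri' {S : L.Substructure N} (h : AmbAt K μ S) {X : Set N} (hX : X.Finite)
    {D : L.Substructure N} (hD : K.le D) (hSD : S ≤ D) (hXD : X ⊆ D) :
    ∃ B : L.Substructure N, B ≤ D ∧ K.le B ∧ S ≤ B ∧ X ⊆ B ∧
      (∀ B' : L.Substructure N, K.le B' → S ≤ B' → X ⊆ B' → ∃ σ : N ≃[L] N,
        (∀ a, a ∈ S → σ a = a) ∧ (∀ a, a ∈ X → σ a = a) ∧ ∀ a, a ∈ B → σ a ∈ B') ∧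
      ∀ V : L.Substructure N, K.le V → V ≤ B → S ≤ V → X ⊆ V → V = B := by
  obtain ⟨B, h1, h2, h3, h4, h5⟩ := h.pri X hX
  obtain ⟨τ, t1, t2, t3⟩ := h4 D hD hSD hXD
  have t4 : ∀ a, τ a = a → τ.symm a = a := fun a ha => by
    conv_lhs => rw [← ha]
    exact τ.symm_apply_apply a
  refine ⟨B.map τ.toHom, ?_, K.le_iso τ B h1, fun a ha => ⟨a, h2 ha, t1 a ha⟩,
    fun a ha => ⟨a, h3 ha, t2 a ha⟩, fun B' g1 g2 g3 => ?_, fun V g1 g2 g3 g4 => ?_⟩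
  · rintro _ ⟨a, ha, rfl⟩
    exact t3 a ha
  · obtain ⟨σ, s1, s2, s3⟩ := h4 B' g1 g2 g3
    refine ⟨σ.comp τ.symm, fun a ha => ?_, fun a ha => ?_, ?_⟩
    · change σ (τ.symm a) = a
      rw [t4 a (t1 a ha), s1 a ha]
    · change σ (τ.symm a) = a
      rw [t4 a (t2 a ha), s2 a ha]
    · rintro _ ⟨a, ha, rfl⟩
      change σ (τ.symm (τ a)) ∈ B'
      rw [τ.symm_apply_apply]
      exact s3 a ha
  · have h6 := h5 (V.map τ.symm.toHom) (K.le_iso τ.symm V g1) (by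
      rintro _ ⟨a, ha, rfl⟩
      obtain ⟨c, hc, rfl⟩ := g2 ha
      change τ.symm (τ c) ∈ B
      rwa [τ.symm_apply_apply]) (fun a ha => ⟨a, g3 ha, t4 a (t1 a ha)⟩)
      fun a ha => ⟨a, g4 ha, t4 a (t2 a ha)⟩
    refine le_antisymm g2 ?_
    rintro _ ⟨a, ha, rfl⟩
    rw [← h6] at ha
    obtain ⟨c, hc, rfl⟩ := ha
    change τ (τ.symm c) ∈ V
    rwa [τ.apply_symm_apply]

end basic

theorem add_aleph0_le {a c : Cardinal.{u}} : a + ℵ₀ ≤ c ↔ ℵ₀ ≤ c ∧ a ≤ c :=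
  ⟨fun h => ⟨le_add_self.trans h, le_self_add.trans h⟩, fun h => add_le_of_le h.1 h.2 h.1⟩

/-- The chains indexed by well-ordered types. -/
noncomputable def idx (ι : Type u) [LinearOrder ι] [WellFoundedLT ι] :
    Set.Iio (Ordinal.type (α := ι) (· < ·)) ≃o ι :=
  OrderIso.ofRelIsoLT (Ordinal.enum (α := ι) (· < ·))

theorem type_pos (ι : Type u) [LinearOrder ι] [WellFoundedLT ι] [Nonempty ι] :
    0 < Ordinal.type (α := ι) (· < ·) :=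
  pos_iff_ne_zero.2 (Ordinal.type_ne_zero_of_nonempty _)

/-- The class with the axioms in the form of the starting files. -/
def AEClass.old (K : AEClass L) : AEC L where
  mem := K.mem
  le := K.le
  mem_iso := K.mem_iso
  le_iso := K.le_iso
  mem_of_le := K.mem_of_le
  le_refl := K.le_refl
  le_trans := K.le_trans
  coherence := K.coherence
  chain_union := fun {U} _ {ι} _ _ _ S h1 h2 h3 => by
    have h4 := K.chain_union _ (type_pos ι) (fun i => S (idx ι i))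
      (fun i j hij => ⟨h1 _ _ ((idx ι).monotone hij), h2 _ _ ((idx ι).monotone hij)⟩) fun x => by
        obtain ⟨i, hi⟩ := h3 x
        exact ⟨(idx ι).symm i, by rwa [OrderIso.apply_symm_apply]⟩
    refine ⟨h4.1, fun i => ?_⟩
    have h5 := h4.2 ((idx ι).symm i)
    rwa [OrderIso.apply_symm_apply] at h5
  chain_smooth := fun {N} _ {ι} _ _ _ S h1 h2 => by
    refine K.chain_smooth _ (type_pos ι) (fun i => S (idx ι i))
      (fun i j hij => ⟨h1 _ _ ((idx ι).monotone hij),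
        K.coherence _ _ (h1 _ _ ((idx ι).monotone hij)) (h2 _) (h2 _)⟩) (fun i => h2 _) _
      fun x => ?_
    rw [Substructure.mem_iSup_of_directed (directed_of_isDirected_le h1)]
    exact ⟨fun ⟨i, hi⟩ => ⟨(idx ι).symm i, by rwa [OrderIso.apply_symm_apply]⟩,
      fun ⟨i, hi⟩ => ⟨_, hi⟩⟩
  exists_ls := by
    obtain ⟨ℓ, h1, h2⟩ := K.exists_ls
    exact ⟨ℓ, (add_aleph0_le.1 h1).1, (add_aleph0_le.1 h1).2, fun {N} _ => h2 N⟩

theorem AEClass.old_LS (K : AEClass L) : K.old.LS = K.LS := by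
  unfold AEC.LS AEClass.LS
  congr 1
  ext ℓ
  rw [mem_ofPred_eq, mem_ofPred_eq, add_aleph0_le, and_assoc]
  rfl

/-- The assumptions above the threshold. -/
structure Tail (K : AEC L) (μ : Cardinal.{u}) : Prop where
  ls : K.IsLS μ
  cat : ∀ κ, μ ≤ κ → K.CategoricalIn κ
  amb : Amb K μ

namespace Tail

variable (h : Tail K μ) {M N N' N₁ N₂ I : Type u} [L.Structure M] [L.Structure N]
  [L.Structure N'] [L.Structure N₁] [L.Structure N₂]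

include h

theorem shrink (hN : K.mem N) {ρ : Cardinal.{u}} (hρ : μ ≤ ρ) (X : Set N) (hX : #X ≤ ρ) :
    ∃ S : L.Substructure N, K.le S ∧ X ⊆ S ∧ #S ≤ ρ := by
  obtain ⟨S, -, h1, h2, h3⟩ := exists_small_le (h.ls.mono hρ) (K.le_refl hN) X
    (fun a _ => Substructure.mem_top a) hX
  exact ⟨S, h1, h2, h3⟩

theorem shrink_eq (hN : K.mem N) {ρ : Cardinal.{u}} (hρ : μ ≤ ρ) (hρN : ρ ≤ #N) (X : Set N)
    (hX : #X ≤ ρ) : ∃ S : L.Substructure N, K.le S ∧ X ⊆ S ∧ #S = ρ := by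
  obtain ⟨W, hW⟩ := le_mk_iff_exists_set.1 hρN
  obtain ⟨S, h1, h2, h3⟩ := h.shrink hN hρ (X ∪ W)
    ((mk_union_le _ _).trans (add_le_of_le (h.ls.1.trans hρ) hX hW.le))
  exact ⟨S, h1, subset_union_left.trans h2,
    le_antisymm h3 (hW.ge.trans (mk_le_mk_of_subset (subset_union_right.trans h2)))⟩

theorem exists_emb (hM : K.mem M) (hN : K.mem N) (hμ : μ ≤ #M) (hMN : #M ≤ #N) :
    ∃ g : M ↪[L] N, K.Emb g := by
  obtain ⟨S, h1, -, h3⟩ := h.shrink_eq hN hμ hMN ∅ (by simp)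
  obtain ⟨e⟩ := (h.cat _ hμ).2 M S hM (K.mem_of_le _ h1).1 rfl h3
  exact ⟨S.subtype.comp e.toEmbedding,
    AEC.Emb.comp (AEC.emb_subtype.2 h1) (AEC.Emb.of_equiv e hM)⟩

theorem at_range {f : M ↪[L] N} (hf : K.Emb f) (hμ : μ ≤ #M) (hMN : #M < #N) :
    AmbAt K μ f.toHom.range :=
  h.amb N _ hf (hμ.trans (card_range f).ge) ((card_range f).trans_lt hMN)

theorem hom {f g : M ↪[L] N} (hf : K.Emb f) (hg : K.Emb g) (hμ : μ ≤ #M) (hMN : #M < #N) :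
    ∃ σ : N ≃[L] N, ∀ m, σ (f m) = g m := by
  let ψ := g.equivRange.comp f.equivRange.symm
  obtain ⟨σ, hσ⟩ := (h.at_range hf hμ hMN).hom g.toHom.range
    (fun a => if ha : a ∈ f.toHom.range then (ψ ⟨a, ha⟩ : N) else a) hg
    ⟨ψ, fun a => by simp only [dif_pos a.2]⟩
  refine ⟨σ, fun m => ?_⟩
  have h1 : f m ∈ f.toHom.range := ⟨m, rfl⟩
  rw [hσ _ h1, dif_pos h1]
  change (g.equivRange (f.equivRange.symm (f.equivRange m)) : N) = _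
  rw [f.equivRange.symm_apply_apply, Embedding.equivRange_apply]

theorem sat {f : M ↪[L] N} {f' : M ↪[L] N'} (hf : K.Emb f) (hf' : K.Emb f') (hμ : μ ≤ #M)
    (hMN : #M < #N) (hN : #N' ≤ #N) : ∃ g : N' ↪[L] N, K.Emb g ∧ ∀ m, g (f' m) = f m := by
  obtain ⟨k, hk⟩ := h.exists_emb hf'.mem_right hf.mem_right
    (hμ.trans (mk_le_of_injective f'.injective)) hN
  obtain ⟨σ, hσ⟩ := h.hom (hk.comp hf') hf hμ hMN
  exact ⟨σ.toEmbedding.comp k, emb_aut σ hk, hσ⟩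

theorem amalgam {f₁ : M ↪[L] N₁} {f₂ : M ↪[L] N₂} (h₁ : K.Emb f₁) (h₂ : K.Emb f₂) (hμ : μ ≤ #M) :
    ∃ (N : Type u) (_ : L.Structure N) (g₁ : N₁ ↪[L] N) (g₂ : N₂ ↪[L] N),
      K.Emb g₁ ∧ K.Emb g₂ ∧ (∀ m, g₁ (f₁ m) = g₂ (f₂ m)) ∧ #N₁ < #N ∧ #N₂ < #N := by
  have c1 : #M ≤ #N₁ := mk_le_of_injective f₁.injective
  have c2 : #N₁ < Order.succ (max #N₁ #N₂) := Order.lt_succ_of_le (le_max_left _ _)
  have c3 : #N₂ < Order.succ (max #N₁ #N₂) := Order.lt_succ_of_le (le_max_right _ _)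
  obtain ⟨N, _, hN, hc⟩ := (h.cat _ ((hμ.trans c1).trans c2.le)).1
  rw [← hc] at c2 c3
  obtain ⟨g₁, hg₁⟩ := h.exists_emb h₁.mem_right hN (hμ.trans c1) c2.le
  obtain ⟨g₂, hg₂, h3⟩ := h.sat (hg₁.comp h₁) h₂ hμ (c1.trans_lt c2) c3.le
  exact ⟨N, inferInstance, g₁, g₂, hg₁, hg₂, fun m => (h3 m).symm, c2, c3⟩

end Tail

namespace Tail

variable {K : AEClass L} (h : Tail K.old μ) {M N N₁ N₂ I : Type u} [L.Structure M]
  [L.Structure N] [L.Structure N₁] [L.Structure N₂]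

include h

theorem saturation (hμ : μ ≤ #M) : Saturation K M := by
  intro N N' _ _ f f' hf hf' hMN
  refine ⟨h.sat hf hf' hμ hMN, fun hN => ?_⟩
  obtain ⟨e⟩ := (h.cat _ (hμ.trans hMN.le)).2 N' N (AEC.Emb.mem_right hf') (AEC.Emb.mem_right hf)
    hN rfl
  obtain ⟨σ, hσ⟩ := h.hom ((AEC.Emb.of_equiv e (AEC.Emb.mem_right (K := K.old) hf')).comp hf') hf
    hμ hMN
  exact ⟨σ.comp e, hσ⟩

theorem disjointAmalgamation (hμ : μ ≤ #M) : DisjointAmalgamation K M := by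
  intro N₁ N₂ _ _ f₁ f₂ h₁ h₂
  obtain ⟨N, _, g₁, g₂, hg₁, hg₂, h3, c1, c2⟩ := h.amalgam h₁ h₂ hμ
  obtain ⟨σ, s1, s2⟩ := (h.at_range (hg₁.comp h₁) hμ
    ((mk_le_of_injective f₁.injective).trans_lt c1)).dis g₁.toHom.range g₂.toHom.range hg₁ hg₂
    (by
      rintro _ ⟨m, rfl⟩
      exact ⟨f₁ m, rfl⟩) (by
      rintro _ ⟨m, rfl⟩
      exact ⟨f₂ m, (h3 m).symm⟩) ((card_range g₁).trans_lt c1) ((card_range g₂).trans_lt c2)
  refine ⟨N, inferInstance, g₁, σ.toEmbedding.comp g₂, hg₁, emb_aut σ hg₂, fun m => ?_,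
    fun x y hxy => ?_⟩
  · change _ = σ (g₂ (f₂ m))
    rw [← h3 m]
    exact (s1 _ ⟨m, rfl⟩).symm
  · change _ = σ (g₂ y) at hxy
    have h4 := s2 (g₂ y) ⟨y, rfl⟩ ⟨x, hxy⟩
    rw [s1 _ h4] at hxy
    obtain ⟨m, hm⟩ := h4
    exact ⟨m, g₁.injective (hxy.trans hm.symm)⟩

/-- Galois types are orbits. -/
theorem exists_aut {f₁ : M ↪[L] N₁} {f₂ : M ↪[L] N₂} {a₁ : I → N₁} {a₂ : I → N₂}
    (H : SameType K f₁ a₁ f₂ a₂) {g₁ : N₁ ↪[L] N} {g₂ : N₂ ↪[L] N} (hg₁ : K.old.Emb g₁)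
    (hg₂ : K.old.Emb g₂) (hg : ∀ m, g₁ (f₁ m) = g₂ (f₂ m)) (m1 : μ ≤ #N₁) (m2 : μ ≤ #N₂)
    (c1 : #N₁ < #N) (c2 : #N₂ < #N) :
    ∃ σ : N ≃[L] N, (∀ m, σ (g₁ (f₁ m)) = g₁ (f₁ m)) ∧ ∀ i, σ (g₁ (a₁ i)) = g₂ (a₂ i) := by
  obtain ⟨N', _, k₁, k₂, hk₁, hk₂, h1, h2⟩ := H
  have hμ : μ ≤ #N := m1.trans c1.le
  obtain ⟨S, hS, h3, h4⟩ := h.shrink (AEC.Emb.mem_right hk₁) hμ (range k₁ ∪ range k₂)
    ((mk_union_le _ _).trans (add_le_of_le (h.ls.1.trans hμ) (mk_range_le.trans c1.le)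
      (mk_range_le.trans c2.le)))
  obtain ⟨j₁, hj₁, e₁⟩ := exists_factor (AEC.emb_subtype.2 hS) hk₁
    fun x => ⟨⟨k₁ x, h3 (Or.inl ⟨x, rfl⟩)⟩, rfl⟩
  obtain ⟨j₂, hj₂, e₂⟩ := exists_factor (AEC.emb_subtype.2 hS) hk₂
    fun x => ⟨⟨k₂ x, h3 (Or.inr ⟨x, rfl⟩)⟩, rfl⟩
  obtain ⟨k, hk, h5⟩ := h.sat hg₂ hj₂ m2 c2 h4
  obtain ⟨σ, hσ⟩ := h.hom hg₁ (hk.comp hj₁) m1 c1
  have h6 : ∀ x y, k₁ x = k₂ y → σ (g₁ x) = g₂ y := fun x y hxy => by
    rw [hσ, ← h5]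
    exact congrArg k (S.subtype.injective ((e₁ x).trans (hxy.trans (e₂ y).symm)))
  exact ⟨σ, fun m => (h6 _ _ (h1 m)).trans (hg m).symm, fun i => h6 _ _ (h2 i)⟩

theorem stable (hM : K.mem M) (hμ : μ ≤ #M) : Stable K M := by
  obtain ⟨N, _, hN, hc⟩ := (h.cat _ (hμ.trans (Order.le_succ #M))).1
  have c1 : #M < #N := hc.symm ▸ Order.lt_succ #M
  obtain ⟨f, hf⟩ := h.exists_emb hM hN hμ c1.le
  obtain ⟨T, hT, h1, h2, h3⟩ := (h.at_range hf hμ c1).uni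
  rw [card_range] at h2 h3
  obtain ⟨f₀, hf₀, e₀⟩ := exists_factor (AEC.emb_subtype.2 hT) hf
    fun x => ⟨⟨f x, h1 ⟨x, rfl⟩⟩, rfl⟩
  refine ⟨T, inferInstance, f₀, hf₀, h2, fun N' I _ f' a hf' hI => ?_⟩
  obtain ⟨S, hS, h4, h5⟩ := h.shrink (AEC.Emb.mem_right hf') hμ (range f' ∪ range a)
    ((mk_union_le _ _).trans (add_le_of_le (h.ls.1.trans hμ) mk_range_le (mk_range_le.trans hI)))
  obtain ⟨j, hj, e⟩ := exists_factor (AEC.emb_subtype.2 hS) hf'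
    fun x => ⟨⟨f' x, h4 (Or.inl ⟨x, rfl⟩)⟩, rfl⟩
  obtain ⟨k, hk, h6⟩ := h.sat hf hj hμ c1 (h5.trans c1.le)
  let a' : I → S := fun i => ⟨a i, h4 (Or.inr ⟨i, rfl⟩)⟩
  obtain ⟨σ, s1, s2⟩ := h3 (range fun i => k (a' i)) (mk_range_le.trans hI)
  obtain ⟨N₃, _, g₁, g₂, hg₁, hg₂, h7, -, -⟩ := h.amalgam (AEC.emb_subtype.2 hS) (emb_aut σ hk)
    (hμ.trans (mk_le_of_injective j.injective))
  refine ⟨fun i => ⟨σ (k (a' i)), s2 _ ⟨i, rfl⟩⟩, N₃, inferInstance, g₁, g₂.comp T.subtype, hg₁,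
    hg₂.comp (AEC.emb_subtype.2 hT), fun m => ?_, fun i => h7 (a' i)⟩
  rw [← e m, h7]
  change g₂ (σ (k (j m))) = g₂ (T.subtype (f₀ m))
  rw [h6, e₀, s1 (f m) ⟨m, rfl⟩]

theorem tame (hμ : μ ≤ #M) : Tame K μ M := by
  intro N₁ N₂ I _ _ f₁ a₁ f₂ a₂ h₁ h₂ hI H
  obtain ⟨N, _, g₁, g₂, hg₁, hg₂, h3, c1, c2⟩ := h.amalgam h₁ h₂ hμ
  have d1 : #M ≤ #N₁ := mk_le_of_injective f₁.injective
  have d2 : #M ≤ #N₂ := mk_le_of_injective f₂.injective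
  obtain ⟨σ, s1, s2⟩ := (h.at_range (hg₁.comp h₁) hμ (d1.trans_lt c1)).tam μ le_rfl
    (hμ.trans (card_range _).ge) I (fun i => g₁ (a₁ i)) (fun i => g₂ (a₂ i)) hI
    fun S₀ _ hS hc => by
      obtain ⟨S, k1, k2, k3⟩ := h.shrink_eq (AEC.Emb.mem_left h₁) le_rfl hμ
        ((g₁.comp f₁) ⁻¹' S₀) ((mk_preimage_of_injective _ _ (g₁.comp f₁).injective).trans hc)
      obtain ⟨σ, t1, t2⟩ := h.exists_aut (H S k1 k3) hg₁ hg₂ (fun m => h3 m) (hμ.trans d1)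
        (hμ.trans d2) c1 c2
      refine ⟨σ, fun x hx => ?_, t2⟩
      obtain ⟨m, rfl⟩ := hS hx
      exact t1 ⟨m, k2 hx⟩
  refine ⟨N, inferInstance, σ.toEmbedding.comp g₁, g₂, emb_aut σ hg₁, hg₂, fun m => ?_, s2⟩
  rw [← h3 m]
  exact s1 _ ⟨m, rfl⟩

theorem primes (hμ : μ ≤ #M) : Primes K M := by
  intro N₀ I _ f a hf hI
  have d0 : #M ≤ #N₀ := mk_le_of_injective f.injective
  obtain ⟨N, _, hN, hc⟩ := (h.cat _ ((hμ.trans d0).trans (Order.le_succ #N₀))).1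
  have c0 : #N₀ < #N := hc.symm ▸ Order.lt_succ #N₀
  obtain ⟨g₀, hg₀⟩ := h.exists_emb (AEC.Emb.mem_right hf) hN (hμ.trans d0) c0.le
  obtain ⟨B, b0, b1, b2, b3, b4, b5⟩ := (h.at_range (hg₀.comp hf) hμ (d0.trans_lt c0)).pri'
    (finite_range fun i => g₀ (a i)) hg₀ (by
      rintro _ ⟨m, rfl⟩
      exact ⟨f m, rfl⟩) (by
      rintro _ ⟨i, rfl⟩
      exact ⟨a i, rfl⟩)
  have hB : K.le (B.comap g₀.toHom) := le_comap hg₀ b1 b0
  refine ⟨B.comap g₀.toHom, fun m => b2 ⟨m, rfl⟩, fun i => b3 ⟨i, rfl⟩, hB,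
    fun N' _ f' a' hf' H => ?_, fun V v1 v2 v3 v4 => ?_⟩
  · obtain ⟨S, hS, h4, h5⟩ := h.shrink (AEC.Emb.mem_right hf') hμ (range f' ∪ range a')
      ((mk_union_le _ _).trans (add_le_of_le (h.ls.1.trans hμ) mk_range_le
        ((finite_range a').lt_aleph0.le.trans (h.ls.1.trans hμ))))
    obtain ⟨j, hj, e⟩ := exists_factor (AEC.emb_subtype.2 hS) hf'
      fun x => ⟨⟨f' x, h4 (Or.inl ⟨x, rfl⟩)⟩, rfl⟩
    have c1 : #S < #N := h5.trans_lt (d0.trans_lt c0)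
    obtain ⟨k, hk, h6⟩ := h.sat (hg₀.comp hf) hj hμ (d0.trans_lt c0) c1.le
    let a'' : I → S := fun i => ⟨a' i, h4 (Or.inr ⟨i, rfl⟩)⟩
    have H' : SameType K f a j a'' := by
      obtain ⟨N₃, _, k₁, k₂, hk₁, hk₂, h1, h2⟩ := H
      exact ⟨N₃, inferInstance, k₁, k₂.comp S.subtype, hk₁,
        AEC.Emb.comp (K := K.old) hk₂ (AEC.emb_subtype.2 hS),
        fun m => (h1 m).trans (congrArg k₂ (e m).symm), h2⟩
    obtain ⟨σ, s1, s2⟩ := h.exists_aut H' hg₀ hk (fun m => (h6 m).symm) (hμ.trans d0)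
      (hμ.trans (mk_le_of_injective j.injective)) c0 c1
    obtain ⟨τ, t1, t2, t3⟩ := b4 (k.toHom.range.comap σ.toHom)
      (le_comap (g := σ.toEmbedding) (AEC.Emb.of_equiv σ hN) hk fun y _ =>
        ⟨σ.symm y, σ.apply_symm_apply y⟩) (by
      rintro _ ⟨m, rfl⟩
      exact ⟨j m, (h6 m).trans (s1 m).symm⟩) (by
      rintro _ ⟨i, rfl⟩
      exact ⟨a'' i, (s2 i).symm⟩)
    obtain ⟨g, hg, h7⟩ := exists_factor hk
      (emb_aut σ (emb_aut τ (hg₀.comp (AEC.emb_subtype.2 hB)))) fun x => t3 _ x.2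
    refine ⟨S.subtype.comp g, (AEC.emb_subtype.2 hS).comp hg, fun m => ?_, fun i => ?_⟩
    · rw [← e m]
      refine congrArg S.subtype (k.injective ((h7 _).trans ?_))
      change σ (τ (g₀ (f m))) = k (j m)
      rw [t1 (g₀ (f m)) ⟨m, rfl⟩, s1 m]
      exact (h6 m).symm
    · refine congrArg S.subtype (k.injective ((h7 _).trans ?_) : g _ = a'' i)
      change σ (τ (g₀ (a i))) = k (a'' i)
      rw [t2 _ ⟨i, rfl⟩, s2 i]
  · have h8 := b5 (V.map g₀.toHom) (le_map hg₀ v1) (by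
      rintro _ ⟨x, hx, rfl⟩
      exact v2 hx) (by
      rintro _ ⟨m, rfl⟩
      exact ⟨f m, v3 m, rfl⟩) (by
      rintro _ ⟨i, rfl⟩
      exact ⟨a i, v4 i, rfl⟩)
    refine le_antisymm v2 fun x hx => ?_
    have h9 : g₀ x ∈ V.map g₀.toHom := h8.symm ▸ hx
    obtain ⟨y, hy, hyx⟩ := h9
    rwa [← g₀.injective hyx]

end Tail

/-- **The question, with the structure of the large members.** -/
theorem main (l : Cardinal.{u}) :
    ∃ μ : Cardinal.{u}, l ≤ μ ∧ ∀ (L : Language.{u, u}) (K : AEClass L), K.LS ≤ l →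
      ∀ κ, μ ≤ κ → K.CategoricalIn κ →
        (∀ κ', μ ≤ κ' → K.CategoricalIn κ') ∧
        ∀ (M : Type u) [L.Structure M], K.mem M → μ ≤ #M →
          DisjointAmalgamation K M ∧ Saturation K M ∧ Stable K M ∧ Tame K μ M ∧ Primes K M := by
  obtain ⟨μ₀, h0, H0⟩ := R2.H732.q1 l
  obtain ⟨μ₁, H1⟩ := exists_amb l
  refine ⟨max μ₀ μ₁, h0.trans (le_max_left _ _), fun L K hK κ hκ hcat => ?_⟩
  rw [← K.old_LS] at hK
  have h2 := H0 L K.old hK κ ((le_max_left _ _).trans hκ) hcat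
  have h : Tail K.old (max μ₀ μ₁) :=
    ⟨AEC.isLS_of_LS_le (hK.trans (h0.trans (le_max_left _ _))),
      fun κ' hκ' => h2 κ' ((le_max_left _ _).trans hκ'), (H1 L K.old hK fun ν =>
        ⟨Order.succ (max μ₀ ν), Order.lt_succ_of_le (le_max_right _ _),
          h2 _ ((le_max_left _ _).trans (Order.le_succ _))⟩).mono (le_max_right _ _)⟩
  exact ⟨h.cat, fun M _ hM hμ => ⟨h.disjointAmalgamation hμ, h.saturation hμ, h.stable hM hμ,
    h.tame hμ, h.primes hμ⟩⟩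

end Vale.Agent.N307
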