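import Vale.Agent.N307.Final

universe u

namespace Vale.Agent.N307.OldStruct

open FirstOrder Cardinal Vale.Agent.N307

/-- **The structure of the large members of an eventually categorical class.** For every cardinal
`l` there is a cardinal `μ ≥ l` such that every abstract elementary class `K`, in any vocabulary,
with `LS(K) ≤ l`, which is categorical in some `κ ≥ μ`, has over every member `M` with at least
`μ` elements disjoint amalgamation, saturation of the larger extensions, stability, `μ`-tameness
and prime models. -/
theorem structure_thm (l : Cardinal.{u}) :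
    ∃ μ : Cardinal.{u}, l ≤ μ ∧ ∀ (L : Language.{u, u}) (K : AEClass L), K.LS ≤ l →
      ∀ κ, μ ≤ κ → K.CategoricalIn κ →
        ∀ (M : Type u) [L.Structure M], K.mem M → μ ≤ #M →
          DisjointAmalgamation K M ∧ Saturation K M ∧ Stable K M ∧ Tame K μ M ∧ Primes K M :=
  (Vale.Agent.N307.main l).imp fun _ h =>
    ⟨h.1, fun L K hK κ hκ hc => (h.2 L K hK κ hκ hc).2⟩

end Vale.Agent.N307.OldStruct
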